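import Vale.Agent.P167.H506.SHP.Inp
import Vale.Agent.P167.H259.S.CxS3
import Vale.Agent.P167.H259.S.ArcI
import Vale.Agent.P167.H638.SM.ArcS

/-!
# P167, general `q`, [SEAM-34]: the arc of a boundary site of low position

`mkD_cx`: 638's data of the mark from the situation of one history. `in_arc`: the arc condition.
-/

set_option autoImplicit false

namespace Vale.Agent.P167.H506.SHP

open Set Metric Filter Topology
open Vale.Agent.P153.R2.R1 (Conf dinv)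
open Vale.Agent.P153.R2.L1 (HH)
open Vale.Agent.P164 (loewnerDomain)
open Vale.Agent.P167.E6 (pt)
open Vale.Agent.P167.QT
open Vale.Agent.P167.H411 (exn Set6)
open Vale.Agent.P167.H446.G (Cst Bef rS rR vd Hst emb Ku Ku_le Nn_le dl_pos even_vd Nn_dvd)
open Vale.Agent.P167.H713.Q (Arc)
open Vale.Agent.P167.H397.K (Obs frm frmH)
open Vale.Agent.P167.H161 (zp)
open Vale.Agent.P167.H72.SD (Wr)
open Vale.Agent.P167.SG
open Vale.Agent.P167.H450.Out (xre)
open Vale.Agent.P167.H632G (tau)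
open Vale.Agent.P167.H638.SM (MkD CM)
open Vale.Agent.P167.H704.Shp

variable {C : Cst} {K : Kst} {δ : ℕ → ℝ} {N k : ℕ → ℕ} {p : ∀ n, ZMod (N n) → ℤ × ℤ}
  {S : ℕ → Finset (ℤ × ℤ)} {ψn : ℕ → ℂ → ℂ} {s : ℝ} {n : ℕ} {A : Hst} {j : ℕ} {c : Bool} {O : Obj}

/-- **The data of the mark.** -/
theorem mkD_cx [Finite (↥(Obs (p n) (k n) (S n) A j (δ n) c (rS s (δ n)) (rR K.r (δ n))) ⊕ O.κ')]
    (h : Cx C K δ N k p S ψn s n A j c O) (hK : K.Ok C) :
    MkD (F1 C δ N k p S ψn s n A j) (H653.St.sg c) K.ε (K.τ / 2) K.xc K.e K.ν (2 * (2 * K.r))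
      (lb s (δ n)) (fun i => dinv (F1 C δ N k p S ψn s n A j) '' K1 C K δ N k p S s n A j c O.Th i)
      K.a₀ K.b₁ K.m K.κ₀ K.τ (xre K.X4) O.sm K.h₁ K.t₁ (K.rc / 4) O.Kb O.Xb O.Km O.x₂ O.q O.e' := by
  have hc := hK.cst
  have h1 := hc.g2
  have h2 := hc.he
  have h3 := hc.hν
  have h4 := hc.hε
  have h5 := hK.κκ
  have hX4 : 1 ≤ K.X4 := by
    have h6 := hK.X1R
    have h7 := hK.R0
    have h8 := hK.X13
    have h9 := hK.X34
    linarith
  refine ⟨⟨hK.a00, by linarith [hK.ab, hK.b01], by linarith [hK.ab, hK.b02], hK.ma, hK.m0, hK.κa,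
    h4.le, by linarith, by linarith, by linarith, H450.Out.xre_nonneg hX4, hK.b1x, hK.τa⟩, h.hmk,
    h.isMk, ?_⟩
  intro u hu hub
  have hS := h.sat
  unfold H653.St.SatH at hS
  have hu1 : u ∈ D1 C δ N k p S ψn s n A j := by
    have := hS.sit.sub hu
    rwa [hS.img] at this
  obtain ⟨z, hz, rfl⟩ := hu1
  have e1 := hS.dinv_ψ hz
  by_contra hcon
  push Not at hcon
  change xre K.X4 < (dinv (F1 C δ N k p S ψn s n A j)
    (H446.G.psr (δ n) (v1 (p n) (k n) C.Ld s (δ n)) (ψn n) z)).re at hcon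
  have h6 : K.X4 < ‖z‖ := far_of_re hS.drv hS.flt.hX1 hS.h4 hS.h16 (hK.X13.trans hK.X34) hX4 hz
    (by rw [← e1]; exact hcon)
  have h7 := h.near4 z (Vale.Agent.P164.im_pos_of_dom hS.drv.nn hz) h6.le
  refine hub ⟨h7.1.trans_le ?_, h7.2.trans_le ?_⟩ <;> linarith [hK.rc0]

/-- The sites in the frame of the bricks. -/
theorem frm_zp (hδ : 0 < δ n) (hN : 0 < H446.G.Nn s (δ n)) (v : ℤ × ℤ) :
    frm (δ n) (vd (p n) (k n) C.Ld s (δ n)) (zp (δ n) v) =
      ((lb s (δ n) / 5 / H446.G.Nn s (δ n) : ℝ) : ℂ) * pt (v - vd (p n) (k n) C.Ld s (δ n)) := by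
  have h2 : (√2 : ℝ) ≠ 0 := by positivity
  have hN' : (H446.G.Nn s (δ n) : ℝ) ≠ 0 := by positivity
  have e : lb s (δ n) / 5 / H446.G.Nn s (δ n) = H446.G.dl (δ n) := by
    unfold lb
    field_simp
  rw [e]
  unfold frm
  apply Complex.ext
  · rw [Complex.add_re, H446.G.rt_re, Complex.neg_re, Complex.re_ofReal_mul,
      Complex.re_ofReal_mul]
    simp only [zp, pt, H446.G.dl, Prod.fst_sub]
    push_cast
    field_simp
    ring
  · rw [Complex.add_im, H446.G.rt_im, Complex.neg_im, Complex.im_ofReal_mul,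
      Complex.im_ofReal_mul]
    simp only [zp, pt, H446.G.dl, Prod.snd_sub]
    push_cast
    field_simp
    ring

/-- The frontier in the frame. -/
theorem frm_frontier {v₀ : ℤ × ℤ} {M : ℕ} {P : Sh4} {w : ℂ} {d : ℝ} :
    w ∈ frontier (PmU d v₀ M P) ↔ frm d v₀ w ∈ frontier (emb (H446.G.dl d * M) P) := by
  have e : PmU d v₀ M P = frmH d v₀ ⁻¹' emb (H446.G.dl d * M) P := rfl
  rw [e, ← (frmH d v₀).preimage_frontier]
  rfl

/-- **The arc of a boundary site of low position**, off the box of radius `3 rc / 8`. -/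
theorem in_arc' (h : Cx C K δ N k p S ψn s n A j c O) (hK : K.Ok C)
    (B : Bas K δ N k p S s n A j) (hN : 8 ≤ H446.G.Nn s (δ n)) {v : ℤ × ℤ}
    (hv : zp (δ n) v ∈ frontier (PmO C δ N k p s n O))
    (hbox : frm (δ n) (v1 (p n) (k n) C.Ld s (δ n)) (zp (δ n) v) ∉
      Bf (lb s (δ n) / 2) (3 * K.rc / 8))
    (him : ∀ u ∈ U1 C K δ N k p S ψn s n A j c O.Th,
      dist u (frm (δ n) (v1 (p n) (k n) C.Ld s (δ n)) (zp (δ n) v)) ≤ 12 * lb s (δ n) →
        H653.St.sg c * (dinv (F1 C δ N k p S ψn s n A j) u).im ≤ K.τ) :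
    Arc c (Dm C δ N k p s n O) (Zt C δ N k p s n O)
      (Wr (Dm C δ N k p s n O) (Zt C δ N k p s n O))
      (arcc (H446.G.Nn s (δ n)) (vd (p n) (k n) C.Ld s (δ n)) O.P) v := by
  have := h.fin
  have : Finite ↥(Obs (p n) (k n) (S n) A j (δ n) c (rS s (δ n)) (rR K.r (δ n))) :=
    H397.K.finite_idx B.δ0
  have D := mkD_cx h hK
  have hN0 : 0 < H446.G.Nn s (δ n) := by omega
  have e5 : lb s (δ n) / 5 = H446.G.dl (δ n) * H446.G.Nn s (δ n) := by unfold lb; ring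
  have hlb := h.lb1
  have hs2 := h.s2
  have hs := B.s0
  have e1 : ((lb s (δ n) / 5 / H446.G.Nn s (δ n) : ℝ) : ℂ) *
      pt (v - vd (p n) (k n) C.Ld s (δ n)) - tau (lb s (δ n)) (Ku C.Ld s) =
      frm (δ n) (v1 (p n) (k n) C.Ld s (δ n)) (zp (δ n) v) := by
    rw [← frm_zp (C := C) B.δ0 hN0, H259.S.frm_vd, add_sub_cancel_right]
  have hm := hK.sm
  have hLc : 0 ≤ C.Lc := by linarith [hm.m_pos, hm.m_Ld, hm.Ld_Lc]
  have hKc : lb s (δ n) / 5 * (Ku C.Lc s + 1) ≤ K.rc / 4 := by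
    rw [e5]
    have h1 := Ku_le hLc hs
    have h2 := Nn_le hs B.δ0
    have h3 : (0 : ℝ) ≤ Ku C.Lc s := by positivity
    have h4 := mul_le_mul_of_nonneg_left h2 h3
    have h5 := hm.Lc_le
    have h6 := hm.m_pos
    nlinarith
  obtain ⟨i, h1, h2, h3, h4⟩ := D.idx h.shd h.fl (by linarith) h.x₂_mem (H653.St.abs_sg c)
    h.x₂_side h.fam.1 h.fam.2.1 h.fam.2.2.1 hN0 hKc
    (s' := v - vd (p n) (k n) C.Ld s (δ n))
    (by rw [← frm_zp (C := C) B.δ0 hN0, e5]; exact frm_frontier.1 hv)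
    (by
      rw [e1]
      exact fun h7 => hbox (bf_mono (by linarith) h7))
    (by rw [e1]; exact him)
  cases c with
  | true =>
    obtain ⟨h5, h6⟩ := h3 (by simp [H653.St.sg])
    refine H259.S.arc_free h.fam.1 (by omega) h1.symm ?_ h6
    rw [Nat.add_mul, one_mul] at h5
    omega
  | false =>
    have h5 := h4 (by simp [H653.St.sg])
    exact H259.S.arc_wired h.fam.1 (by omega) (even_vd _ _ _ _ _) h1.symm (by omega) (by omega)

/-- **The arc of a boundary site of low position.** -/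
theorem in_arc (h : Cx C K δ N k p S ψn s n A j c O) (hK : K.Ok C)
    (B : Bas K δ N k p S s n A j) (hN : 8 ≤ H446.G.Nn s (δ n)) {v : ℤ × ℤ}
    (hv : zp (δ n) v ∈ frontier (PmO C δ N k p s n O))
    (hbox : frm (δ n) (v1 (p n) (k n) C.Ld s (δ n)) (zp (δ n) v) ∉
      Bf (lb s (δ n) / 2) (K.rc / 2))
    (him : ∀ u ∈ U1 C K δ N k p S ψn s n A j c O.Th,
      dist u (frm (δ n) (v1 (p n) (k n) C.Ld s (δ n)) (zp (δ n) v)) ≤ 12 * lb s (δ n) →
        H653.St.sg c * (dinv (F1 C δ N k p S ψn s n A j) u).im ≤ K.τ) :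
    Arc c (Dm C δ N k p s n O) (Zt C δ N k p s n O)
      (Wr (Dm C δ N k p s n O) (Zt C δ N k p s n O))
      (arcc (H446.G.Nn s (δ n)) (vd (p n) (k n) C.Ld s (δ n)) O.P) v :=
  in_arc' h hK B hN hv (fun h7 => hbox (bf_mono (by linarith [hK.rc0]) h7)) him

end Vale.Agent.P167.H506.SHP
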