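import Vale.Agent.P167.H506.SHP.Dom
import Vale.Agent.P167.H713.Q.BadJ2
import Vale.Agent.P167.H713.Q.Chain

/-!
# P167, general `q`, [SHP-ASM]: the base square

A square near a point of the domain which is far from the path and from the boundary is unread and is
not in `Bad`.
-/

set_option autoImplicit false

namespace Vale.Agent.P167.H506.SHP

open Set Filter Topology Metric
open Vale.Agent.P167.E6 Vale.Agent.P167.E2
open Vale.Agent.P167.H713.Q (Io mem_SqD clos_Io cor_SqD Io_sub Dn oR Cn Cfl Bad mem_Bad tip dist_SqD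
  cor_faces)
open Vale.Agent.P167.H634 (SqD Sq1)
open Vale.Agent.P167.H161 (zp zp_rf Rd mem_Rd)
open Vale.Agent.P167.QT (Sh4 dom)
open Vale.Agent.P167.FKA (Cor)
open Vale.Agent.P167.H72.SD (dk)

variable {n : ℕ} {p : ZMod n → ℤ × ℤ} {k : ℕ} {S : Finset (ℤ × ℤ)} {A : Finset (Sym2 (ℤ × ℤ))}
  {j : ℕ} {δ r : ℝ} {v x s z : ℤ × ℤ} {z₀ w : ℂ} {ρ R : ℕ}

/-- Every point is in a closed square. -/
theorem exists_SqD (hδ : 0 < δ) (w : ℂ) : ∃ v : ℤ × ℤ, w ∈ SqD δ v := by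
  refine ⟨(⌊(w.re - w.im) / δ⌋, ⌊(w.re + w.im) / δ⌋), (mem_SqD hδ).2 ⟨⟨?_, ?_⟩, ?_, ?_⟩⟩
  · have := Int.floor_le ((w.re - w.im) / δ)
    rw [le_div_iff₀ hδ] at this
    dsimp only
    linarith
  · have := Int.lt_floor_add_one ((w.re - w.im) / δ)
    rw [div_lt_iff₀ hδ] at this
    dsimp only
    linarith
  · have := Int.floor_le ((w.re + w.im) / δ)
    rw [le_div_iff₀ hδ] at this
    dsimp only
    linarith
  · have := Int.lt_floor_add_one ((w.re + w.im) / δ)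
    rw [div_lt_iff₀ hδ] at this
    dsimp only
    linarith

theorem SqD_ball (hδ : 0 < δ) (hv : z₀ ∈ SqD δ v) (hr : δ < r) : SqD δ v ⊆ ball z₀ r := by
  intro w hw
  rw [mem_ball]
  exact (dist_SqD hδ hw hv).trans_lt hr

/-- A face whose centre is in `Om` is in `S`. -/
theorem face_Om (hδ : 0 < δ) {f : ℤ × ℤ} (h : zp δ (H192.rf f) ∈ Om δ S) : f ∈ S := by
  rw [zp_rf, mem_Om hδ] at h
  obtain ⟨g, hg, h1, h2, h3, h4⟩ := h
  have e1 : (pt f + ⟨1 / 2, 1 / 2⟩ : ℂ).re = f.1 + 1 / 2 := by simp [pt]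
  have e2 : (pt f + ⟨1 / 2, 1 / 2⟩ : ℂ).im = f.2 + 1 / 2 := by simp [pt]
  rw [e1] at h1 h2
  rw [e2] at h3 h4
  have a1 : g.1 < f.1 + 1 := by
    have : (g.1 : ℝ) < f.1 + 1 := by linarith
    exact_mod_cast this
  have a2 : f.1 < g.1 + 1 := by
    have : (f.1 : ℝ) < g.1 + 1 := by linarith
    exact_mod_cast this
  have a3 : g.2 < f.2 + 1 := by
    have : (g.2 : ℝ) < f.2 + 1 := by linarith
    exact_mod_cast this
  have a4 : f.2 < g.2 + 1 := by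
    have : (f.2 : ℝ) < g.2 + 1 := by linarith
    exact_mod_cast this
  have : g = f := Prod.ext (by omega) (by omega)
  rwa [← this]

/-- A square inside of `Om` is a square of the domain. -/
theorem dq_of_SqD (hδ : 0 < δ) (hp : IsPolygon p) (hS : Encloses p S) (h : SqD δ v ⊆ Om δ S) :
    v ∈ H718.Dq S p k := by
  obtain ⟨a, t, hu⟩ := H192.isEdge_ed v
  have hv' : v = H192.sq s(a, a + dir t) := by rw [← hu, H192.sq_ed]
  obtain ⟨c1, c2⟩ := cor_faces a t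
  rw [← hv'] at c1 c2
  have f1 : face a t ∈ S := face_Om hδ (h (cor_SqD hδ c1))
  have f2 : face a (t - 1) ∈ S := face_Om hδ (h (cor_SqD hδ c2))
  rw [H718.mem_Dq', hu]
  refine ⟨(mem_edges _).2 (Or.inl f1), fun hw => ?_⟩
  obtain ⟨i, -, -, hi⟩ := H718.mem_wE.1 hw
  obtain ⟨t', ht'⟩ := hp.2.2 (i : ZMod n)
  obtain ⟨-, g2⟩ := (hS (p i) t').1 ⟨i, rfl, ht'⟩
  have h5 : s(a, a + dir t) ∈ edges {face (p (i : ZMod n)) (t' - 1)} := by
    rw [hi, ht']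
    exact (mem_edges _).2 (Or.inr (Finset.mem_singleton_self _))
  rcases (mem_edges _).1 h5 with h6 | h6 <;> rw [Finset.mem_singleton] at h6
  · rw [h6] at f1
    exact g2 f1
  · rw [h6] at f2
    exact g2 f2

/-- The path visits the read squares. -/
theorem pl_rd (hδ : 0 < δ) (hA : A ⊆ edges S) (hj : j - 1 ≤ len p k A)
    (hv : v ∈ Rd p k S A j) : ∃ t ∈ Icc (0 : ℝ) j, pl p k δ A t ∈ SqD δ v := by
  obtain ⟨-, i, hi, rfl⟩ := (mem_Rd hA).1 hv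
  refine ⟨((i + 1 : ℕ) : ℝ), ⟨by positivity, by exact_mod_cast (by omega : i + 1 ≤ j)⟩, ?_⟩
  have h1 : pl p k δ A ((i + 1 : ℕ) : ℝ) = (δ : ℂ) * cpt (1 / 4) (run p k A i) := by
    unfold pl
    rw [lin_nat]
    unfold xv
    rw [if_neg (by omega), if_pos (by omega), Nat.add_sub_cancel]
  have key : ∀ c : Medial, (δ : ℂ) * cpt (1 / 4) c ∈ SqD δ (H192.sq (ahead c)) := by
    rintro ⟨a, t⟩
    unfold ahead
    rw [H634.sq_edge, mem_SqD hδ, Complex.re_ofReal_mul, Complex.im_ofReal_mul, ← mul_sub,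
      ← mul_add]
    have k2 : ∀ t : Fin 4, ((((face (H192.ro a) (t + 1)).1 : ℝ) ≤ (cpt (1 / 4) (a, t)).re -
        (cpt (1 / 4) (a, t)).im ∧ (cpt (1 / 4) (a, t)).re - (cpt (1 / 4) (a, t)).im ≤
        ((face (H192.ro a) (t + 1)).1 : ℝ) + 1) ∧
        ((face (H192.ro a) (t + 1)).2 : ℝ) ≤ (cpt (1 / 4) (a, t)).re + (cpt (1 / 4) (a, t)).im ∧
        (cpt (1 / 4) (a, t)).re + (cpt (1 / 4) (a, t)).im ≤
          ((face (H192.ro a) (t + 1)).2 : ℝ) + 1) := by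
      refine forall4 ?_ ?_ ?_ ?_ <;>
        simp only [Fjord.cpt_0, Fjord.cpt_1, Fjord.cpt_2, Fjord.cpt_3, f4_01, f4_11,
        f4_21, f4_31, face0, face1, face2, face3, H192.ro] <;> push_cast <;>
        refine ⟨⟨?_, ?_⟩, ?_, ?_⟩ <;> linarith
    obtain ⟨⟨b1, b2⟩, b3, b4⟩ := k2 t
    exact ⟨⟨mul_le_mul_of_nonneg_left b1 hδ.le, mul_le_mul_of_nonneg_left b2 hδ.le⟩,
      mul_le_mul_of_nonneg_left b3 hδ.le, mul_le_mul_of_nonneg_left b4 hδ.le⟩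
  rw [h1]
  exact key _

/-- **`x₀d`.** -/
theorem x0d (hδ : 0 < δ) (hp : IsPolygon p) (hS : Encloses p S) (hA : A ⊆ edges S)
    (hj : j - 1 ≤ len p k A) (hb : ball z₀ r ⊆ Dn p k S A j δ) (hr : δ < r)
    (hx : z₀ ∈ SqD δ x) : x ∈ dk p k S A j := by
  have h1 : SqD δ x ⊆ Dn p k S A j δ := (SqD_ball hδ hx hr).trans hb
  refine Finset.mem_sdiff.2 ⟨dq_of_SqD hδ hp hS fun w hw => (h1 hw).1, fun h => ?_⟩
  obtain ⟨t, ht, h2⟩ := pl_rd hδ hA hj h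
  exact (h1 h2).2 ⟨t, ht, rfl⟩

/-- **`x₀P`.** -/
theorem x0P {v₀ : ℤ × ℤ} {N : ℕ} {P : Sh4} (hδ : 0 < δ)
    (hb : ball z₀ r ⊆ PmU δ v₀ N P) (hr : δ < r) (hx : z₀ ∈ SqD δ x) : x ∈ dom N v₀ P :=
  (mem_dom_iff hδ).2 (((Io_sub hδ x).trans (SqD_ball hδ hx hr)).trans hb)

theorem convex_oR (δ : ℝ) (z : ℤ × ℤ) (R : ℝ) : Convex ℝ (oR δ z R) := by
  intro a ha b hb s t hs ht hst
  obtain ⟨a1, a2⟩ := ha
  obtain ⟨b1, b2⟩ := hb
  rw [abs_lt] at a1 a2 b1 b2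
  simp only [oR, mem_ofPred_eq, abs_lt, Complex.add_re, Complex.add_im, Complex.smul_re,
    Complex.smul_im, smul_eq_mul]
  have ht' : t = 1 - s := by linarith
  subst ht'
  rcases hs.lt_or_eq with h0 | rfl
  · refine ⟨⟨?_, ?_⟩, ?_, ?_⟩ <;> nlinarith
  · refine ⟨⟨?_, ?_⟩, ?_, ?_⟩ <;> linarith

/-- Two points of a box. -/
theorem dist_oR {a b : ℂ} {K : ℝ} (ha : a ∈ oR δ z K) (hb : b ∈ oR δ z K) :
    dist a b ≤ 2 * (δ * K) := by
  obtain ⟨a1, a2⟩ := ha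
  obtain ⟨b1, b2⟩ := hb
  rw [abs_lt] at a1 a2 b1 b2
  rw [Complex.dist_eq_re_im]
  rw [Real.sqrt_le_left (by
    have := (abs_nonneg (a.re - a.im - δ * z.1))
    nlinarith)]
  have e1 : -(2 * (δ * K)) ≤ (a.re - b.re) - (a.im - b.im) := by linarith
  have e2 : (a.re - b.re) - (a.im - b.im) ≤ 2 * (δ * K) := by linarith
  have e3 : -(2 * (δ * K)) ≤ (a.re - b.re) + (a.im - b.im) := by linarith
  have e4 : (a.re - b.re) + (a.im - b.im) ≤ 2 * (δ * K) := by linarith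
  have e5 := abs_le.2 ⟨e1, e2⟩
  have e6 := abs_le.2 ⟨e3, e4⟩
  have e7 := sq_le_sq' e1 e2
  have e8 := sq_le_sq' e3 e4
  nlinarith

/-- **`x₀b`.** -/
theorem x0b (hδ : 0 < δ) (hb : ball z₀ r ⊆ Dn p k S A j δ)
    (hρ : ρ ≤ R) (hr : 2 * (δ * R) + δ < r) (hx : z₀ ∈ SqD δ x) (c : Bool) :
    x ∉ Bad p k S A j δ c ρ R := by
  intro h
  obtain ⟨-, z, u, w, -, hc, y, hy1, hy2⟩ := mem_Bad.1 h
  have hρ' : (ρ : ℝ) ≤ R := by exact_mod_cast hρ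
  have hρ0 : (0 : ℝ) ≤ ρ := Nat.cast_nonneg _
  have mono : ∀ {K : ℝ}, K ≤ R → oR δ z K ⊆ oR δ z R := fun {K} hK a ha =>
    ⟨ha.1.trans_le (mul_le_mul_of_nonneg_left hK hδ.le),
      ha.2.trans_le (mul_le_mul_of_nonneg_left hK hδ.le)⟩
  have hyR : y ∈ oR δ z R := mono hρ' (H713.Q.Cn_sub hy2).2
  have hsub : oR δ z R ⊆ Dn p k S A j δ := by
    intro a ha
    refine hb ?_
    rw [mem_ball]
    have h1 := dist_triangle a y z₀
    have h2 := dist_oR ha hyR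
    have h3 := dist_SqD hδ hy1 hx
    linarith
  have hu := mono (by linarith : (ρ : ℝ) / 2 ≤ R) hc.u_reg
  have hw := mono (by linarith : (ρ : ℝ) / 2 ≤ R) hc.w_reg
  refine hc.nj ?_
  have h4 : oR δ z R ⊆ Cn p k S A j δ z R u :=
    (convex_oR δ z R).isPreconnected.subset_connectedComponentIn hu
      (subset_inter hsub Subset.rfl)
  exact h4 hw

/-- The same ball in the rotated frame. -/
theorem dist_rot (δ : ℝ) (v₀ : ℤ × ℤ) (z w : ℂ) :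
    dist (H446.G.rt * z + -((H446.G.dl δ : ℂ) * pt v₀))
      (H446.G.rt * w + -((H446.G.dl δ : ℂ) * pt v₀)) = dist z w := by
  rw [dist_add_right, H446.G.dist_rt]

theorem ball_PmU {v₀ : ℤ × ℤ} {N : ℕ} {P : Sh4}
    (h : ball (H446.G.rt * z₀ + -((H446.G.dl δ : ℂ) * pt v₀)) r ⊆ H446.G.emb (H446.G.dl δ * N) P) :
    ball z₀ r ⊆ PmU δ v₀ N P := by
  intro w hw
  refine h ?_
  rw [mem_ball, dist_rot]
  exact hw

theorem ball_rot {v₀ : ℤ × ℤ} {D : Set ℂ}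
    (h : ball (H446.G.rt * z₀ + -((H446.G.dl δ : ℂ) * pt v₀)) r ⊆
      (fun w : ℂ => H446.G.rt * w + -((H446.G.dl δ : ℂ) * pt v₀)) '' D) :
    ball z₀ r ⊆ D := by
  intro w hw
  obtain ⟨w', h1, h2⟩ := h (show H446.G.rt * w + -((H446.G.dl δ : ℂ) * pt v₀) ∈ _ by
    rw [mem_ball, dist_rot]
    exact hw)
  have h3 : w' = w := by
    rw [← dist_eq_zero, ← dist_rot δ v₀]
    exact dist_eq_zero.2 h2
  rwa [← h3]

/-- **The base square.** -/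
theorem base_ex {v₀ : ℤ × ℤ} {N : ℕ} {P : Sh4} (hδ : 0 < δ) (hp : IsPolygon p)
    (hS : Encloses p S) (hA : A ⊆ edges S) (hj : j - 1 ≤ len p k A)
    (hD : ball z₀ r ⊆ Dn p k S A j δ) (hP : ball z₀ r ⊆ PmU δ v₀ N P)
    (hρ : ρ ≤ R) (hr : 2 * (δ * R) + δ < r) :
    ∃ x₀ : ℤ × ℤ, z₀ ∈ SqD δ x₀ ∧ SqD δ x₀ ⊆ closedBall z₀ δ ∧ x₀ ∈ dom N v₀ P ∧
      x₀ ∈ dk p k S A j ∧ ∀ c, x₀ ∉ Bad p k S A j δ c ρ R := by
  obtain ⟨x₀, h0⟩ := exists_SqD hδ z₀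
  have hr' : δ < r := by
    have : 0 ≤ 2 * (δ * R) := by positivity
    linarith
  exact ⟨x₀, h0, fun w hw => mem_closedBall.2 (dist_SqD hδ hw h0), x0P hδ hP hr' h0,
    x0d hδ hp hS hA hj hD hr' h0, x0b hδ hD hρ hr h0⟩

end Vale.Agent.P167.H506.SHP
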