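import Vale.Agent.P167.H704.Shp.Cx
import Vale.Agent.P167.H713.Q.InpAll
import Vale.Agent.P167.H506.SHP.X0
import Vale.Agent.P167.H469.Flb4

/-!
# P167, general `q`, [SHP-ASM]: the lattice relation of a shape (`S_inp`) from the fields of the seam

`AllH F`: `F` for all histories and all situations `Cx` (eventually).
-/

set_option autoImplicit false

namespace Vale.Agent.P167.H506.SHP

open Set Metric Filter Topology
open Vale.Agent.P167.QT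
open Vale.Agent.P167.E6 (IsPolygon Encloses edges)
open Vale.Agent.P167.E2 (len)
open Vale.Agent.P167.H411 (exn Set6 good_ev mem_Qc)
open Vale.Agent.P167.H446.G (Cst Bef Inp bad rS rR vd Nn wf Fam Hst dl)
open Vale.Agent.P167.H713.Q (Io Dn Sd Seam Seen NearS Arc)
open Vale.Agent.P167.H397.K (OO frm)
open Vale.Agent.P167.H634 (SqD)
open Vale.Agent.P167.H161 (zp)
open Vale.Agent.P167.FKA (Cor)
open Vale.Agent.P167.H72.SD (dk om Wr LB RB ComS)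
open Vale.Agent.P167.SG (Bf)
open Vale.Agent.P167.H704.Shp (v1 lb Kst Obj Cx D1 ps1 S_inp)
open Vale.Agent.P167.H469.Fl (FF Fl1 Fl2 FlA)

/-! ### statements for all histories -/

section

variable (δ : ℕ → ℝ) (N k : ℕ → ℕ) (p : ∀ n, ZMod (N n) → ℤ × ℤ) (S : ℕ → Finset (ℤ × ℤ))
  (ψn : ℕ → ℂ → ℂ)

/-- `F` for all histories and all situations. -/
def AllH (F : Cst → Kst → ℝ → ℕ → Hst → ℕ → Bool → Obj → Prop) : Prop :=
  ∀ T R : ℝ, 0 ≤ T → 0 < R → ∃ ρI : ℝ, 0 < ρI ∧ ∀ (C : Cst) (K : Kst), C.T = T → C.R = R →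
    K.Ok C → K.rf ≤ ρI → ∃ s₀ : ℝ, 0 < s₀ ∧ ∀ s : ℝ, 0 < s → s ≤ s₀ → ∀ᶠ n in atTop,
      ∀ (A : Hst) (j : ℕ), Bef (exn δ N k p S ψn n) C.T C.R A j → ∀ (c : Bool) (O : Obj),
        Cx C K δ N k p S ψn s n A j c O → F C K s n A j c O

variable {δ N k p S ψn}

theorem AllH.and {F G : Cst → Kst → ℝ → ℕ → Hst → ℕ → Bool → Obj → Prop}
    (hF : AllH δ N k p S ψn F) (hG : AllH δ N k p S ψn G) :
    AllH δ N k p S ψn fun C K s n A j c O => F C K s n A j c O ∧ G C K s n A j c O := by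
  intro T R hT hR
  obtain ⟨ρ₁, h1, hF⟩ := hF T R hT hR
  obtain ⟨ρ₂, h2, hG⟩ := hG T R hT hR
  refine ⟨min ρ₁ ρ₂, lt_min h1 h2, fun C K eT eR hK hr => ?_⟩
  obtain ⟨s₁, k1, hF⟩ := hF C K eT eR hK (hr.trans (min_le_left _ _))
  obtain ⟨s₂, k2, hG⟩ := hG C K eT eR hK (hr.trans (min_le_right _ _))
  refine ⟨min s₁ s₂, lt_min k1 k2, fun s hs hs' => ?_⟩
  filter_upwards [hF s hs (hs'.trans (min_le_left _ _)),
    hG s hs (hs'.trans (min_le_right _ _))] with n g1 g2 A j hb c O hC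
  exact ⟨g1 A j hb c O hC, g2 A j hb c O hC⟩

theorem AllH.mono {F G : Cst → Kst → ℝ → ℕ → Hst → ℕ → Bool → Obj → Prop}
    (hF : AllH δ N k p S ψn F) (h : ∀ C K s n A j c O, F C K s n A j c O → G C K s n A j c O) :
    AllH δ N k p S ψn G := by
  intro T R hT hR
  obtain ⟨ρ₁, h1, hF⟩ := hF T R hT hR
  refine ⟨ρ₁, h1, fun C K eT eR hK hr => ?_⟩
  obtain ⟨s₁, k1, hF⟩ := hF C K eT eR hK hr
  refine ⟨s₁, k1, fun s hs hs' => ?_⟩
  filter_upwards [hF s hs hs'] with n g1 A j hb c O hC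
  exact h _ _ _ _ _ _ _ _ (g1 A j hb c O hC)

/-- The situation itself. -/
theorem AllH.cx : AllH δ N k p S ψn fun C K s n A j c O => Cx C K δ N k p S ψn s n A j c O :=
  fun _ _ _ _ => ⟨1, zero_lt_one, fun _ _ _ _ _ _ => ⟨1, zero_lt_one, fun _ _ _ =>
    Eventually.of_forall fun _ _ _ _ _ _ h => h⟩⟩

end

/-! ### the basic facts -/

section

variable (K : Kst) (δ : ℕ → ℝ) (N k : ℕ → ℕ) (p : ∀ n, ZMod (N n) → ℤ × ℤ)
  (S : ℕ → Finset (ℤ × ℤ)) (s : ℝ) (n : ℕ) (A : Hst) (j : ℕ)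

/-- The basic facts of a history. -/
structure Bas : Prop where
  δ0 : 0 < δ n
  pol : IsPolygon (p n)
  enc : Encloses (p n) (S n)
  k0 : 0 < k n
  kN : k n + 1 < N n
  sub : A ⊆ edges (S n)
  len : j - 1 ≤ len (p n) (k n) A
  s0 : 0 < s
  δs : δ n ≤ s
  ρ : 32 ≤ rS s (δ n)
  ρR : 7 * rS s (δ n) ≤ rR K.r (δ n)
  sr : 7200 * s ≤ K.r

end

theorem bas {Φ : (ℝ × ℝ) ≃ₜ (ℝ × ℝ)} {ψ : ℂ → ℂ} {δ : ℕ → ℝ} {N k : ℕ → ℕ}
    {p : ∀ n, ZMod (N n) → ℤ × ℤ} {S : ℕ → Finset (ℤ × ℤ)} {ψn : ℕ → ℂ → ℂ}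
    (H : Set6 Φ ψ δ N k p S ψn) :
    AllH δ N k p S ψn fun _ K s n A j _ _ => Bas K δ N k p S s n A j := by
  intro T R hT hR
  refine ⟨1, zero_lt_one, fun C K _ _ hK _ => ?_⟩
  have hr := hK.r0
  refine ⟨K.r / 7200, by positivity, fun s hs hs' => ?_⟩
  filter_upwards [good_ev H.appr, H.appr.2.1.eventually (gt_mem_nhds hs)] with n h2 h3 A j hB c O _
  obtain ⟨a1, a2, a3, a4, a5⟩ := H.appr.1 n
  obtain ⟨hA, hj, hb⟩ := hB
  have hA' : A ⊆ edges (S n) := (mem_Qc (p := p n) (k := k n) (δ := δ n)).1 hA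
  have hj' : j - 1 ≤ len (p n) (k n) A := by
    change j < len (p n) (k n) A + 2 at hj
    omega
  have h5 := H397.K.rho_rr (a := 100) (s := s) (r := K.r) (by norm_num) a1 h3.le (by linarith)
  exact ⟨a1, a4, a5, a2, h2, hA', hj', hs, h3.le, H397.K.rho_ge (by norm_num) a1 h3.le, h5,
    by linarith⟩

/-! ### the fields -/

section

variable (C : Cst) (K : Kst) (δ : ℕ → ℝ) (N k : ℕ → ℕ) (p : ∀ n, ZMod (N n) → ℤ × ℤ)
  (S : ℕ → Finset (ℤ × ℤ)) (s : ℝ) (n : ℕ) (A : Hst) (j : ℕ) (c : Bool) (O : Obj)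

/-- The squares of the shape. -/
noncomputable abbrev Dm : Finset (ℤ × ℤ) :=
  dom (H446.G.Nn s (δ n)) (vd (p n) (k n) C.Ld s (δ n)) O.P

/-- The outside configuration of the shape. -/
noncomputable abbrev Zt : Vale.Agent.P167.Cfg :=
  QT.ext (H446.G.Nn s (δ n)) (vd (p n) (k n) C.Ld s (δ n)) O.P

/-- The open set of the shape. -/
noncomputable abbrev PmO : Set ℂ :=
  PmU (δ n) (vd (p n) (k n) C.Ld s (δ n)) (H446.G.Nn s (δ n)) O.P

/-- The base square. -/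
noncomputable abbrev X0 : ℤ × ℤ :=
  H713.Q.x0 (H446.G.Nn s (δ n)) (vd (p n) (k n) C.Ld s (δ n))

/-- A set seen from the base square. -/
abbrev SeenX (X : Set ℂ) : Prop :=
  Seen (Dn (p n) (k n) (S n) A j (δ n))
    (OO (p n) (k n) (S n) A j (δ n) c (rS s (δ n)) (rR K.r (δ n))) (PmO C δ N k p s n O) (δ n)
    (X0 C δ N k p s n) X

/-- The flat part (469). -/
noncomputable abbrev FlS : Set ℂ :=
  FlA c (p n) (k n) (S n) A j (δ n) K.rc (v1 (p n) (k n) C.Ld s (δ n)) (lb s (δ n) / 2) K.rf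

/-- The fields of the seam near a part of the flat part. -/
abbrev FlatX (Fl : Set ℂ) : Prop :=
  FF c (p n) (k n) (S n) A j (δ n) (bad (p n) (k n) (S n) (δ n) K.r s A j c)
    (Dm C δ N k p s n O) (Zt C δ N k p s n O) (H446.G.wf C (p n) (k n) (S n) (δ n) s)
    (Wr (Dm C δ N k p s n O) (Zt C δ N k p s n O))
    (arcc (H446.G.Nn s (δ n)) (vd (p n) (k n) C.Ld s (δ n)) O.P) Fl

end

section

variable (δ : ℕ → ℝ) (N k : ℕ → ℕ) (p : ∀ n, ZMod (N n) → ℤ × ℤ) (S : ℕ → Finset (ℤ × ℤ))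
  (ψn : ℕ → ℂ → ℂ)

/-- **Field `s3`.** -/
def F_s3 : Prop := AllH δ N k p S ψn fun C K s n A j c O =>
  ∀ X, SeenX C K δ N k p S s n A j c O X → ∀ y ∈ X,
    NearS (Dn (p n) (k n) (S n) A j (δ n)) (Sd (p n) (k n) (S n) A j (δ n) c) (6 * δ n) y →
    frm (δ n) (v1 (p n) (k n) C.Ld s (δ n)) y ∈ Bf (lb s (δ n) / 2) (K.rf / 4)

/-- **Field `s4`.** -/
def F_s4 : Prop := AllH δ N k p S ψn fun C K s n A j c O =>
  ∀ X, SeenX C K δ N k p S s n A j c O X → ∀ v, zp (δ n) v ∈ X →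
    zp (δ n) v ∈ frontier (PmO C δ N k p s n O) →
    (∃ y ∈ dk (p n) (k n) (S n) A j, y ∉ bad (p n) (k n) (S n) (δ n) K.r s A j c ∧
      y ∉ Dm C δ N k p s n O ∧ Cor y v) →
    Arc c (Dm C δ N k p s n O) (Zt C δ N k p s n O)
      (Wr (Dm C δ N k p s n O) (Zt C δ N k p s n O))
      (arcc (H446.G.Nn s (δ n)) (vd (p n) (k n) C.Ld s (δ n)) O.P) v

/-- **The flat fields, first set.** -/
def F_fl1 : Prop := AllH δ N k p S ψn fun C K s n A j c O =>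
  FlatX C K δ N k p S s n A j c O (Fl1 (p n) (k n) (S n) A j (δ n) K.rc)

/-- **The flat fields, second set.** -/
def F_fl2 : Prop := AllH δ N k p S ψn fun C K s n A j c O =>
  FlatX C K δ N k p S s n A j c O
    (Fl2 c (p n) (k n) (S n) A j (δ n) K.rc (v1 (p n) (k n) C.Ld s (δ n)) (lb s (δ n) / 2) K.rf)

/-- **Field `wfl`.** -/
def F_wfl : Prop := AllH δ N k p S ψn fun C K s n A j c _ =>
  ∀ x ∈ H718.Dq (S n) (p n) (k n), ∀ v, (v.1 + v.2) % 2 = 1 → Cor x v → H192.rf' v ∉ S n →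
    v ∈ H446.G.wf C (p n) (k n) (S n) (δ n) s ∨
      ∃ y ∈ FlS C K δ N k p S s n A j c, dist y (zp (δ n) v) ≤ 6 * δ n

end

/-- **`S_inp` from the fields.** -/
theorem s_inp_of
    (h : ∀ (Φ : (ℝ × ℝ) ≃ₜ (ℝ × ℝ)) (ψ : ℂ → ℂ) (δ : ℕ → ℝ) (N k : ℕ → ℕ)
      (p : ∀ n, ZMod (N n) → ℤ × ℤ) (S : ℕ → Finset (ℤ × ℤ)) (ψn : ℕ → ℂ → ℂ),
      Set6 Φ ψ δ N k p S ψn → QE.Stair 3 Φ δ N k p S →
      F_s3 δ N k p S ψn ∧ F_s4 δ N k p S ψn ∧ F_fl1 δ N k p S ψn ∧ F_fl2 δ N k p S ψn ∧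
        F_wfl δ N k p S ψn) :
    S_inp := by
  intro Φ ψ δ N k p S ψn H hSt T R hT hR
  obtain ⟨h3, h4, hf1, hf2, hw⟩ := h Φ ψ δ N k p S ψn H hSt
  obtain ⟨ρ₁, k1, g1⟩ := ((h3.and h4).and (((hf1.and hf2).and hw).and (bas H))) T R hT hR
  obtain ⟨ρ₂, k2, g2⟩ := H713.Q.inp_all H hSt hT hR.le
  refine ⟨min ρ₁ ρ₂, lt_min k1 k2, fun C K eT eR hK hr => ?_⟩
  obtain ⟨s₁, m1, g1⟩ := g1 C K eT eR hK (hr.trans (min_le_left _ _))
  have hsm : C.Sm ρ₂ := by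
    have h1 := hK.sm
    have h2 := hK.rcf
    have h3 := hK.rf0
    have h4 := hr.trans (min_le_right _ _)
    exact ⟨h1.m_pos, h1.m_Ld, h1.Ld_Lc, by linarith [h1.Lc_le, hK.rc0]⟩
  obtain ⟨s₂, m2, g2⟩ := g2 C eT eR hsm K.r hK.r0
  refine ⟨min s₁ s₂, lt_min m1 m2, fun s hs hs' => ?_⟩
  filter_upwards [g1 s hs (hs'.trans (min_le_left _ _)),
    g2 s hs (hs'.trans (min_le_right _ _))] with n q1 q2 A j hB c O hC
  obtain ⟨⟨c3, c4⟩, ⟨⟨cf1, cf2⟩, cw⟩, B⟩ := q1 A j hB c O hC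
  have cf := cf1.union cf2
  obtain ⟨⟨x1, x2, x3⟩, hI⟩ := q2.2 A j hB c O.P hC.fam
  refine hI (PmO C δ N k p s n O)
    (OO (p n) (k n) (S n) A j (δ n) c (rS s (δ n)) (rR K.r (δ n)))
    (FlS C K δ N k p S s n A j c) ?_
  exact {
    p1 := p1 B.δ0
    p2 := p2 B.δ0
    popen := popen B.δ0
    x₀P := x1
    x₀d := x2
    x₀b := x3
    ob := H397.K.ob B.δ0 B.ρ
    s3 := fun X hX y hy hN => H469.Fl.mem_FlA (hX.sub hy) (c3 X hX y hy hN) hN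
    s4 := c4
    com := cf.com
    cout := cf.cout
    wpf := cf.wpf
    cbd := cf.cbd
    far := cf.far
    flo := cf.flo
    flp := cf.flp
    fw := cf.fw
    wfl := cw
    wout := by
      rintro v ⟨i, r, -, h1, h2⟩ -
      rw [← h2, H192.rf'_rf]
      exact h1 }

end Vale.Agent.P167.H506.SHP
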