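import Vale.Agent.P167.H713.Q.SeamD
import Vale.Agent.P167.H446.G.Defs

/-!
# P167, general `q`, [SHP-ASM]: the open set of a shape and its squares

`PmU δ v₀ N P`: the open set of the shape `P` in the frame of the path (unrotated), with `N` squares
per unit and `d` at the site `v₀`.
-/

set_option autoImplicit false

namespace Vale.Agent.P167.H506.SHP

open Set Filter Topology
open Vale.Agent.P167.E6 (pt region)
open Vale.Agent.P167.H713.Q (Io mem_SqD clos_Io cor_SqD Io_sub)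
open Vale.Agent.P167.H634 (SqD)
open Vale.Agent.P167.H446.G (rt dl_pos rt_re rt_im emb)
open Vale.Agent.P167.H161 (zp)
open Vale.Agent.P167.QT (Sh4 dom)
open Vale.Agent.P167.FKA (Cor)
open Vale.Agent.P167.H825 (enl)

variable {δ : ℝ} {v₀ x y s : ℤ × ℤ} {N : ℕ} {P : Sh4} {w z : ℂ}

/-- The open set of the shape, unrotated. -/
noncomputable def PmU (δ : ℝ) (v₀ : ℤ × ℤ) (N : ℕ) (P : Sh4) : Set ℂ :=
  {w | rt * w + -((H446.G.dl δ : ℂ) * pt v₀) ∈ emb (H446.G.dl δ * N) P}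

/-- The coordinates of the rotated frame. -/
theorem rot_re (hδ : 0 < δ) (w : ℂ) : (rt * w + -((H446.G.dl δ : ℂ) * pt v₀)).re =
    H446.G.dl δ * ((w.re - w.im) / δ - v₀.1) := by
  have h2 : (√2 : ℝ) ≠ 0 := by positivity
  rw [Complex.add_re, rt_re, Complex.neg_re, Complex.re_ofReal_mul]
  simp only [pt, H446.G.dl]
  field_simp
  ring

theorem rot_im (hδ : 0 < δ) (w : ℂ) : (rt * w + -((H446.G.dl δ : ℂ) * pt v₀)).im =
    H446.G.dl δ * ((w.re + w.im) / δ - v₀.2) := by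
  have h2 : (√2 : ℝ) ≠ 0 := by positivity
  rw [Complex.add_im, rt_im, Complex.neg_im, Complex.im_ofReal_mul]
  simp only [pt, H446.G.dl]
  field_simp
  ring

theorem mem_dom : x ∈ dom N v₀ P ↔ ∃ f ∈ P.S, (N * f.1 ≤ x.1 - v₀.1 ∧ x.1 - v₀.1 < N * (f.1 + 1)) ∧
    N * f.2 ≤ x.2 - v₀.2 ∧ x.2 - v₀.2 < N * (f.2 + 1) := by
  unfold dom enl
  simp only [Finset.mem_image, Finset.mem_biUnion, Finset.mem_product, Finset.mem_range]
  constructor
  · rintro ⟨y, ⟨f, hf, a, ⟨h1, h2⟩, rfl⟩, rfl⟩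
    refine ⟨f, hf, ⟨?_, ?_⟩, ?_, ?_⟩
    · simp only [Prod.fst_add]
      omega
    · simp only [Prod.fst_add]
      have : (N : ℤ) * (f.1 + 1) = N * f.1 + N := by ring
      omega
    · simp only [Prod.snd_add]
      omega
    · simp only [Prod.snd_add]
      have : (N : ℤ) * (f.2 + 1) = N * f.2 + N := by ring
      omega
  · rintro ⟨f, hf, ⟨h1, h2⟩, h3, h4⟩
    have e1 : (N : ℤ) * (f.1 + 1) = N * f.1 + N := by ring
    have e2 : (N : ℤ) * (f.2 + 1) = N * f.2 + N := by ring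
    refine ⟨x - v₀, ⟨f, hf, ((x.1 - v₀.1 - N * f.1).toNat, (x.2 - v₀.2 - N * f.2).toNat),
      ⟨by omega, by omega⟩, Prod.ext ?_ ?_⟩, by simp⟩
    · simp only [Prod.fst_sub]
      omega
    · simp only [Prod.snd_sub]
      omega

/-- The closed set of the shape, unrotated. -/
def RgU (δ : ℝ) (v₀ : ℤ × ℤ) (N : ℕ) (P : Sh4) : Set ℂ :=
  {w | ∃ f ∈ P.S, ((N : ℝ) * f.1 ≤ (w.re - w.im) / δ - v₀.1 ∧
    (w.re - w.im) / δ - v₀.1 ≤ N * (f.1 + 1)) ∧
    (N : ℝ) * f.2 ≤ (w.re + w.im) / δ - v₀.2 ∧ (w.re + w.im) / δ - v₀.2 ≤ N * (f.2 + 1)}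

theorem mem_RgU (hδ : 0 < δ) : w ∈ RgU δ v₀ N P ↔
    rt * w + -((H446.G.dl δ : ℂ) * pt v₀) ∈ region (H446.G.dl δ * N) P.S := by
  have hd := dl_pos hδ
  show _ ↔ ∃ f ∈ P.S, _ ∧ _ ∧ _ ∧ _
  rw [rot_re hδ, rot_im hδ]
  refine exists_congr fun f => and_congr_right fun _ => ?_
  have key : ∀ a b : ℝ, (H446.G.dl δ * N * a ≤ H446.G.dl δ * b ↔ (N : ℝ) * a ≤ b) := fun a b => by
    rw [mul_assoc]
    exact mul_le_mul_iff_right₀ hd
  have key' : ∀ a b : ℝ, (H446.G.dl δ * b ≤ H446.G.dl δ * N * a ↔ b ≤ (N : ℝ) * a) := fun a b => by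
    rw [mul_assoc]
    exact mul_le_mul_iff_right₀ hd
  rw [key, key', key, key']
  tauto

theorem sq_RgU (hδ : 0 < δ) (hx : x ∈ dom N v₀ P) : SqD δ x ⊆ RgU δ v₀ N P := by
  intro w hw
  rw [mem_SqD hδ] at hw
  obtain ⟨⟨h1, h2⟩, h3, h4⟩ := hw
  obtain ⟨f, hf, ⟨g1, g2⟩, g3, g4⟩ := mem_dom.1 hx
  have k1 : (N : ℝ) * f.1 ≤ x.1 - v₀.1 := by exact_mod_cast g1
  have k2 : (x.1 : ℝ) - v₀.1 + 1 ≤ N * (f.1 + 1) := by exact_mod_cast (by omega :
    x.1 - v₀.1 + 1 ≤ (N : ℤ) * (f.1 + 1))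
  have k3 : (N : ℝ) * f.2 ≤ x.2 - v₀.2 := by exact_mod_cast g3
  have k4 : (x.2 : ℝ) - v₀.2 + 1 ≤ N * (f.2 + 1) := by exact_mod_cast (by omega :
    x.2 - v₀.2 + 1 ≤ (N : ℤ) * (f.2 + 1))
  have m1 : (x.1 : ℝ) ≤ (w.re - w.im) / δ := by
    rw [le_div_iff₀ hδ]; linarith
  have m2 : (w.re - w.im) / δ ≤ x.1 + 1 := by
    rw [div_le_iff₀ hδ]; linarith
  have m3 : (x.2 : ℝ) ≤ (w.re + w.im) / δ := by
    rw [le_div_iff₀ hδ]; linarith
  have m4 : (w.re + w.im) / δ ≤ x.2 + 1 := by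
    rw [div_le_iff₀ hδ]; linarith
  exact ⟨f, hf, ⟨by linarith, by linarith⟩, by linarith, by linarith⟩

/-- The map to the rotated frame and its inverse are continuous. -/
theorem cont_rot : Continuous fun w : ℂ => rt * w + -((H446.G.dl δ : ℂ) * pt v₀) := by fun_prop

theorem PmU_eq (hδ : 0 < δ) : PmU δ v₀ N P = interior (RgU δ v₀ N P) := by
  have e1 : RgU δ v₀ N P = (fun w : ℂ => rt * w + -((H446.G.dl δ : ℂ) * pt v₀)) ⁻¹'
      region (H446.G.dl δ * N) P.S := by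
    ext w
    exact mem_RgU hδ
  have h0 := H446.G.rt_ne
  let g : ℂ ≃ₜ ℂ := (Homeomorph.mulLeft₀ rt h0).trans (Homeomorph.addRight (-((H446.G.dl δ : ℂ) * pt v₀)))
  have e2 : (fun w : ℂ => rt * w + -((H446.G.dl δ : ℂ) * pt v₀)) = g := rfl
  rw [e1, e2, ← g.preimage_interior]
  rfl

/-- **`popen`.** -/
theorem popen (hδ : 0 < δ) : IsOpen (PmU δ v₀ N P) := by
  rw [PmU_eq hδ]
  exact isOpen_interior

theorem isOpen_Io (δ : ℝ) (v : ℤ × ℤ) : IsOpen (Io δ v) := by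
  have c1 : Continuous fun z : ℂ => z.re - z.im := by fun_prop
  have c2 : Continuous fun z : ℂ => z.re + z.im := by fun_prop
  exact ((isOpen_lt continuous_const c1).inter (isOpen_lt c1 continuous_const)).inter
    ((isOpen_lt continuous_const c2).inter (isOpen_lt c2 continuous_const))

/-- **`p1`.** -/
theorem p1 (hδ : 0 < δ) : ∀ x ∈ dom N v₀ P, Io δ x ⊆ PmU δ v₀ N P := by
  intro x hx
  rw [PmU_eq hδ]
  exact interior_maximal ((Io_sub hδ x).trans (sq_RgU hδ hx)) (isOpen_Io δ x)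

theorem dom_of_RgU (hδ : 0 < δ) (hw : w ∈ Io δ y) (h : w ∈ RgU δ v₀ N P) :
    y ∈ dom N v₀ P := by
  obtain ⟨⟨h1, h2⟩, h3, h4⟩ := hw
  obtain ⟨f, hf, ⟨g1, g2⟩, g3, g4⟩ := h
  have m1 : (y.1 : ℝ) < (w.re - w.im) / δ := by
    rw [lt_div_iff₀ hδ]; linarith
  have m2 : (w.re - w.im) / δ < y.1 + 1 := by
    rw [div_lt_iff₀ hδ]; linarith
  have m3 : (y.2 : ℝ) < (w.re + w.im) / δ := by
    rw [lt_div_iff₀ hδ]; linarith
  have m4 : (w.re + w.im) / δ < y.2 + 1 := by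
    rw [div_lt_iff₀ hδ]; linarith
  refine mem_dom.2 ⟨f, hf, ⟨?_, ?_⟩, ?_, ?_⟩
  · have : (N : ℝ) * f.1 < y.1 - v₀.1 + 1 := by linarith
    have h5 : (N : ℤ) * f.1 < y.1 - v₀.1 + 1 := by exact_mod_cast this
    omega
  · have : (y.1 : ℝ) - v₀.1 < N * (f.1 + 1) := by linarith
    exact_mod_cast this
  · have : (N : ℝ) * f.2 < y.2 - v₀.2 + 1 := by linarith
    have h5 : (N : ℤ) * f.2 < y.2 - v₀.2 + 1 := by exact_mod_cast this
    omega
  · have : (y.2 : ℝ) - v₀.2 < N * (f.2 + 1) := by linarith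
    exact_mod_cast this

/-- **`p2`.** -/
theorem p2 (hδ : 0 < δ) : ∀ y, y ∉ dom N v₀ P → Disjoint (Io δ y) (PmU δ v₀ N P) := by
  intro y hy
  rw [Set.disjoint_left]
  intro w h1 h2
  rw [PmU_eq hδ] at h2
  exact hy (dom_of_RgU hδ h1 (interior_subset h2))

theorem Io_nonempty (hδ : 0 < δ) (v : ℤ × ℤ) : (Io δ v).Nonempty := by
  refine ⟨⟨δ * (v.1 + v.2 + 1) / 2, δ * (v.2 - v.1) / 2⟩, ⟨?_, ?_⟩, ?_, ?_⟩ <;> simp only <;>
    nlinarith

/-- A square is in the domain iff its interior is in the open set of the shape. -/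
theorem mem_dom_iff (hδ : 0 < δ) : x ∈ dom N v₀ P ↔ Io δ x ⊆ PmU δ v₀ N P := by
  refine ⟨p1 hδ x, fun h => ?_⟩
  by_contra hx
  obtain ⟨w, hw⟩ := Io_nonempty hδ x
  exact Set.disjoint_left.1 (p2 hδ x hx) hw (h hw)

theorem not_dom_iff (hδ : 0 < δ) : x ∉ dom N v₀ P ↔
    Disjoint (Io δ x) (PmU δ v₀ N P) := by
  refine ⟨p2 hδ x, fun h hx => ?_⟩
  obtain ⟨w, hw⟩ := Io_nonempty hδ x
  exact Set.disjoint_left.1 h hw (p1 hδ x hx hw)

/-! ### the closure and the frontier -/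

theorem isClosed_RgU : IsClosed (RgU δ v₀ N P) := by
  have c1 : Continuous fun z : ℂ => (z.re - z.im) / δ - v₀.1 := by fun_prop
  have c2 : Continuous fun z : ℂ => (z.re + z.im) / δ - v₀.2 := by fun_prop
  have e : RgU δ v₀ N P = ⋃ f ∈ P.S, {w : ℂ | ((N : ℝ) * f.1 ≤ (w.re - w.im) / δ - v₀.1 ∧
      (w.re - w.im) / δ - v₀.1 ≤ N * (f.1 + 1)) ∧
      (N : ℝ) * f.2 ≤ (w.re + w.im) / δ - v₀.2 ∧ (w.re + w.im) / δ - v₀.2 ≤ N * (f.2 + 1)} := by
    ext w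
    simp only [RgU, mem_ofPred_eq, mem_iUnion, exists_prop]
  rw [e]
  refine (Finset.finite_toSet P.S).isClosed_biUnion fun f _ => ?_
  exact ((isClosed_le continuous_const c1).inter (isClosed_le c1 continuous_const)).inter
    ((isClosed_le continuous_const c2).inter (isClosed_le c2 continuous_const))

theorem closure_PmU_sub (hδ : 0 < δ) : closure (PmU δ v₀ N P) ⊆ RgU δ v₀ N P := by
  rw [PmU_eq hδ]
  exact closure_minimal interior_subset isClosed_RgU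

theorem sq_closure (hδ : 0 < δ) (hx : x ∈ dom N v₀ P) : SqD δ x ⊆ closure (PmU δ v₀ N P) :=
  (clos_Io hδ x).trans (closure_mono (p1 hδ x hx))

theorem zp_sub (δ : ℝ) (s : ℤ × ℤ) : (zp δ s).re - (zp δ s).im = δ * s.1 := by
  simp only [zp]
  push_cast
  ring

theorem zp_add (δ : ℝ) (s : ℤ × ℤ) : (zp δ s).re + (zp δ s).im = δ * s.2 := by
  simp only [zp]
  push_cast
  ring

theorem zp_RgU (hδ : 0 < δ) (hN : 0 < N) : zp δ s ∈ RgU δ v₀ N P ↔
    ∃ x ∈ dom N v₀ P, Cor x s := by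
  constructor
  · rintro ⟨f, hf, ⟨g1, g2⟩, g3, g4⟩
    rw [zp_sub, mul_div_cancel_left₀ _ hδ.ne'] at g1 g2
    rw [zp_add, mul_div_cancel_left₀ _ hδ.ne'] at g3 g4
    have k1 : (N : ℤ) * f.1 ≤ s.1 - v₀.1 := by exact_mod_cast g1
    have k2 : s.1 - v₀.1 ≤ (N : ℤ) * (f.1 + 1) := by exact_mod_cast g2
    have k3 : (N : ℤ) * f.2 ≤ s.2 - v₀.2 := by exact_mod_cast g3
    have k4 : s.2 - v₀.2 ≤ (N : ℤ) * (f.2 + 1) := by exact_mod_cast g4
    have e1 : (N : ℤ) * (f.1 + 1) = N * f.1 + N := by ring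
    have e2 : (N : ℤ) * (f.2 + 1) = N * f.2 + N := by ring
    refine ⟨(if s.1 - v₀.1 = (N : ℤ) * (f.1 + 1) then s.1 - 1 else s.1,
      if s.2 - v₀.2 = (N : ℤ) * (f.2 + 1) then s.2 - 1 else s.2), mem_dom.2 ⟨f, hf, ?_⟩, ?_⟩
    · dsimp only
      split_ifs <;> omega
    · unfold Cor
      dsimp only
      split_ifs <;> omega
  · rintro ⟨x, hx, hs⟩
    exact sq_RgU hδ hx (cor_SqD hδ hs)

/-- A site is in the closure of the shape iff it is a corner of a square of the domain. -/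
theorem zp_closure (hδ : 0 < δ) (hN : 0 < N) : zp δ s ∈ closure (PmU δ v₀ N P) ↔
    ∃ x ∈ dom N v₀ P, Cor x s := by
  constructor
  · exact fun h => (zp_RgU hδ hN).1 (closure_PmU_sub hδ h)
  · rintro ⟨x, hx, hs⟩
    exact sq_closure hδ hx (cor_SqD hδ hs)

/-- A site is in the shape iff all the squares around it are in the domain. -/
theorem zp_mem (hδ : 0 < δ) : zp δ s ∈ PmU δ v₀ N P ↔
    ∀ x, Cor x s → x ∈ dom N v₀ P := by
  constructor
  · intro h x hx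
    by_contra hd
    have h1 := (p2 (P := P) hδ x hd).closure_left (popen hδ)
    exact Set.disjoint_left.1 h1 (clos_Io hδ x (cor_SqD hδ hx)) h
  · intro h
    rw [PmU_eq hδ, mem_interior]
    have c1 : Continuous fun z : ℂ => z.re - z.im := by fun_prop
    have c2 : Continuous fun z : ℂ => z.re + z.im := by fun_prop
    refine ⟨{z | (δ * (s.1 - 1) < z.re - z.im ∧ z.re - z.im < δ * (s.1 + 1)) ∧
      δ * (s.2 - 1) < z.re + z.im ∧ z.re + z.im < δ * (s.2 + 1)}, ?_,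
      ((isOpen_lt continuous_const c1).inter (isOpen_lt c1 continuous_const)).inter
        ((isOpen_lt continuous_const c2).inter (isOpen_lt c2 continuous_const)), ?_⟩
    · rintro z ⟨⟨h1, h2⟩, h3, h4⟩
      refine sq_RgU hδ (h (if z.re - z.im ≤ δ * s.1 then s.1 - 1 else s.1,
        if z.re + z.im ≤ δ * s.2 then s.2 - 1 else s.2) ?_) ((mem_SqD hδ).2 ?_)
      · unfold Cor
        dsimp only
        split_ifs <;> omega
      · dsimp only
        split_ifs with h5 h6 h6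
        · push_cast
          exact ⟨⟨h1.le, by linarith⟩, h3.le, by linarith⟩
        · push_cast
          exact ⟨⟨h1.le, by linarith⟩, by linarith, h4.le⟩
        · push_cast
          exact ⟨⟨by linarith, h2.le⟩, h3.le, by linarith⟩
        · exact ⟨⟨by linarith, h2.le⟩, by linarith, h4.le⟩
    · show (_ ∧ _) ∧ _ ∧ _
      rw [zp_sub, zp_add]
      refine ⟨⟨?_, ?_⟩, ?_, ?_⟩ <;> nlinarith

/-- **The sites of the frontier.** -/
theorem zp_frontier (hδ : 0 < δ) (hN : 0 < N) : zp δ s ∈ frontier (PmU δ v₀ N P) ↔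
    (∃ x ∈ dom N v₀ P, Cor x s) ∧ ∃ y, y ∉ dom N v₀ P ∧ Cor y s := by
  rw [frontier, Set.mem_sdiff, (popen hδ).interior_eq, zp_closure hδ hN, zp_mem hδ]
  push Not
  refine and_congr_right fun _ => ?_
  constructor
  · rintro ⟨x, h1, h2⟩
    exact ⟨x, h2, h1⟩
  · rintro ⟨x, h1, h2⟩
    exact ⟨x, h2, h1⟩

end Vale.Agent.P167.H506.SHP
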