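import Vale.Agent.P167.H506.SHP.Fin0
import Vale.Agent.P167.H264.FlS.Main
import Vale.Agent.P167.H259.S.ArcF

/-!
# P167, general `q`, [SHP-ASM]: the lattice relation of the shapes is a theorem
-/

set_option autoImplicit false

namespace Vale.Agent.P167.H506.SHP

/-- **Boxes (4) - (8): `S_inp`.** -/
theorem s_inp : H704.Shp.S_inp :=
  s_inp_fl2 fun _ _ _ _ _ _ _ _ H hSt => H264.FlS.f_fl2 H hSt (H259.S.f_arcl H)

end Vale.Agent.P167.H506.SHP
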