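import Vale.Agent.P167.H506.SHP.S4a
import Vale.Agent.P167.H638.SM.S4
import Vale.Agent.P167.H469.Flb7

/-!
# P167, general `q`, [SHP-ASM]: `S_inp` from the second part of the flat fields
-/

set_option autoImplicit false

namespace Vale.Agent.P167.H506.SHP

open Vale.Agent.P167.QT
open Vale.Agent.P167.H411 (Set6)
open Vale.Agent.P167.H704.Shp (S_inp)

variable {Φ : (ℝ × ℝ) ≃ₜ (ℝ × ℝ)} {ψ : ℂ → ℂ} {δ : ℕ → ℝ} {N k : ℕ → ℕ}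
  {p : ∀ n, ZMod (N n) → ℤ × ℤ} {S : ℕ → Finset (ℤ × ℤ)} {ψn : ℕ → ℂ → ℂ}

theorem f_fl1 (H : Set6 Φ ψ δ N k p S ψn) (hSt : QE.Stair 3 Φ δ N k p S) :
    F_fl1 δ N k p S ψn :=
  AllH.mono (H469.Fl.fl1_all H hSt) fun _ _ _ _ _ _ _ _ h => h.1

theorem f_wfl (H : Set6 Φ ψ δ N k p S ψn) (hSt : QE.Stair 3 Φ δ N k p S) :
    F_wfl δ N k p S ψn :=
  AllH.mono (H469.Fl.fl1_all H hSt) fun _ _ _ _ _ _ _ _ h x hx v h1 h2 h3 =>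
    (h.2.1 x hx v h1 h2 h3).imp id fun ⟨y, hy, hd⟩ => ⟨y, Or.inl hy, hd⟩

/-- **`S_inp` from `F_fl2`.** -/
theorem s_inp_fl2
    (h : ∀ (Φ : (ℝ × ℝ) ≃ₜ (ℝ × ℝ)) (ψ : ℂ → ℂ) (δ : ℕ → ℝ) (N k : ℕ → ℕ)
      (p : ∀ n, ZMod (N n) → ℤ × ℤ) (S : ℕ → Finset (ℤ × ℤ)) (ψn : ℕ → ℂ → ℂ),
      Set6 Φ ψ δ N k p S ψn → QE.Stair 3 Φ δ N k p S → F_fl2 δ N k p S ψn) : S_inp :=
  s_inp_of fun Φ ψ δ N k p S ψn H hSt => ⟨H259.S.f_s3 H, H638.SM.f_s4 H hSt, f_fl1 H hSt,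
    h Φ ψ δ N k p S ψn H hSt, f_wfl H hSt⟩

end Vale.Agent.P167.H506.SHP
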